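import Crest.Agent.X212.Cg28.Defs
import Crest.Agent.X212.Rod53.Lens

/-!
# X212 / Cy83 (helper83): the branched cyclic cover (`Cg28.BrStmt`)
-/

set_option autoImplicit false

open Set Filter Topology Function TopologicalSpace
open scoped ContDiff Manifold
open Crest.Agent.R208 Crest.Agent.R208.F Crest.Agent.X212.Dr59 Crest.Agent.X212.Int54
open Crest.Agent.X212.Glue52 Crest.Agent.X212.Orx52 Crest.Agent.X212.Cg28 Crest.Agent.X212.Rod53

noncomputable section

namespace Crest.Agent.X212.Cy83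

theorem compat_at {E H E' H' E'' H'' M M' N X : Type*} [NormedAddCommGroup E] [NormedSpace ℝ E]
    [TopologicalSpace H] [NormedAddCommGroup E'] [NormedSpace ℝ E'] [TopologicalSpace H']
    [NormedAddCommGroup E''] [NormedSpace ℝ E''] [TopologicalSpace H''] {I : ModelWithCorners ℝ E H}
    {J : ModelWithCorners ℝ E' H'} {K : ModelWithCorners ℝ E'' H''} [TopologicalSpace M]
    [ChartedSpace H M] [TopologicalSpace M'] [ChartedSpace H' M'] [TopologicalSpace N] [ChartedSpace H'' N]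
    [TopologicalSpace X] {f : M → X} {g : M' → X} {π : X → N} {p : M} {q : M'} (e : f p = g q)
    (cf : ContinuousAt f p) (cg : ContinuousAt g q) (hf : IsLocalDiffeomorphAt I K ∞ (π ∘ f) p)
    (hg : IsLocalDiffeomorphAt J K ∞ (π ∘ g) q) {s : Set X} (hs : s ∈ 𝓝 (g q)) (hi : InjOn π s) :
    ∃ φ : PartialDiffeomorph I J M M' ∞, p ∈ φ.source ∧ φ p = q ∧ ∀ z ∈ φ.source, g (φ z) = f z := by
  have e1 : (π ∘ f) p = (π ∘ g) q := congrArg π e
  have h1 := hf.comp J M' (e1 ▸ hg.localInverse_isLocalDiffeomorphAt)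
  have e2 : hg.localInverse ((π ∘ f) p) = q := e1 ▸ hg.localInverse_left_inv hg.localInverse_mem_target
  have h2 : ∀ᶠ z in 𝓝 p, g (hg.localInverse ((π ∘ f) z)) = f z := by
    filter_upwards [cf (e ▸ hs), (cg.tendsto.comp (h1.contMDiffAt.continuousAt.tendsto.mono_right
      (congrArg 𝓝 e2).le)) hs,
      hf.contMDiffAt.continuousAt (hg.localInverse.open_source.mem_nhds (e1 ▸ hg.localInverse_mem_source))]
      with z a b c using hi b a (hg.localInverse_right_inv c)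
  obtain ⟨φ, h3, h4⟩ := h1
  obtain ⟨t, t1, t2, t3⟩ := eventually_nhds_iff.1 h2
  exact ⟨pdRestr φ t t2, ⟨h3, t3⟩, (h4 h3).symm.trans e2,
    fun z hz => (congrArg g (h4 hz.1).symm).trans (t1 z hz.2)⟩

theorem gl_eq (p : ℕ) (w : Circle × ℂ) :
    gl (0, p) (1, 0) w = (w.1, (‖w.2‖ : ℂ) * (dir w.2 ^ p : Circle)) := by simp [gl]

theorem ld_glp {p : ℕ} (hp : 0 < p) {w : Circle × ℂ} (h : w.2 ≠ 0) :
    IsLocalDiffeomorphAt Rod53.IT Rod53.IT ∞ (gl (0, p) (1, 0)) w := by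
  have h0 := norm_pos_iff.2 h
  have h1 : IsLocalDiffeomorphAt 𝓘(ℝ, ℂ) 𝓘(ℝ, ℂ) ∞ (fun z : ℂ => (‖z‖ : ℂ) * (dir z ^ p : Circle))
      (polar (dir w.2, ‖w.2‖)) := by
    refine ld_of_comp (ld_polar h0) (ld_congr ((ld_prodMap (ld_zpow (n := p) (by omega)) Glue52.ld_id _).comp
      _ _ (ld_polar h0)) ?_)
    filter_upwards [continuous_snd.continuousAt (Ioi_mem_nhds h0)] with a (ha : 0 < a.2)
    simp [polar, dir_mul ha, abs_of_pos ha]
  rw [show polar (dir w.2, ‖w.2‖) = w.2 from norm_mul_dir _] at h1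
  exact ld_congr (ld_prodMap_at (Glue52.ld_id w.1) h1) (.of_forall (gl_eq p))

variable (B : Bs) (p : ℕ)

/-- the radial function -/
def ρ : B.N → ℝ := fun x => 1 - B.T.rf (fun r : ℝ => (1 + r)⁻¹) 0 x

theorem ρ_cont : Continuous (ρ B) := continuous_const.sub (B.T.continuous_rf Tb.cont_inv Tb.tend_inv)

theorem ρ_τ (w : Circle × ℂ) : ρ B (B.T.τ w) = (1 + ‖w.2‖)⁻¹ * ‖w.2‖ := by
  rw [ρ, B.T.rf_τ]
  field_simp
  ring

variable {B} in
theorem ρ_pos {x : B.N} (h : x ∈ B.T.Ex) : 0 < ρ B x := sub_pos.2 (B.T.rf_lt h)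

variable {B} in
theorem ρ_zero {x : B.N} (h : x ∉ B.T.Ex) : ρ B x = 0 := by
  obtain ⟨u, rfl⟩ := (B.T.Ex_or x).resolve_left h
  simp [ρ_τ]

theorem ρ_nonneg (x : B.N) : 0 ≤ ρ B x := (em _).elim (fun h => (ρ_pos h).le) fun h => (ρ_zero h).ge

theorem Θ_cont {p : ℕ} (hp : 0 < p) : Continuous fun x => (ρ B x : ℂ) ^ p * B.θ x := by
  refine continuous_iff_continuousAt.2 fun x => ?_
  have c : Continuous fun x => (ρ B x : ℂ) ^ p := (Complex.continuous_ofReal.comp (ρ_cont B)).pow p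
  by_cases h : x ∈ B.T.Ex
  · exact c.continuousAt.mul (continuous_subtype_val.continuousAt.comp (B.sm x h).continuousAt)
  · have := c.continuousAt (x := x)
    simp only [ContinuousAt, ρ_zero h, Complex.ofReal_zero, zero_pow hp.ne', zero_mul] at this ⊢
    exact tendsto_zero_iff_norm_tendsto_zero.2 ((tendsto_zero_iff_norm_tendsto_zero.1 this).congr
      fun y => by simp)

/-- the total space -/
def Xc : Type := {a : B.N × ℂ // a.2 ^ p = (ρ B a.1 : ℂ) ^ p * B.θ a.1}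

instance : TopologicalSpace (Xc B p) := instTopologicalSpaceSubtype
instance : T2Space (Xc B p) := inferInstanceAs (T2Space (Subtype _))
instance : SecondCountableTopology (Xc B p) := IsInducing.subtypeVal.secondCountableTopology

variable {B p}

/-- the projection -/
def pj (a : Xc B p) : B.N := a.1.1

theorem pj_cont : Continuous (pj : Xc B p → B.N) := continuous_fst.comp continuous_subtype_val

theorem snd_cont : Continuous fun a : Xc B p => a.1.2 := continuous_snd.comp continuous_subtype_val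

theorem norm_snd (hp : 0 < p) (a : Xc B p) : ‖a.1.2‖ = ρ B (pj a) := by
  have := congrArg norm a.2
  rw [norm_mul, Circle.norm_coe, mul_one, norm_pow, norm_pow, Complex.norm_real,
    Real.norm_of_nonneg (ρ_nonneg B _)] at this
  exact (pow_left_inj₀ (norm_nonneg _) (ρ_nonneg B _) hp.ne').1 this

theorem snd_ne (hp : 0 < p) {a : Xc B p} (h : pj a ∈ B.T.Ex) : a.1.2 ≠ 0 :=
  norm_pos_iff.1 (norm_snd hp a ▸ ρ_pos h)

theorem dir_pow (hp : 0 < p) {a : Xc B p} (h : pj a ∈ B.T.Ex) : B.θ (pj a) = dir a.1.2 ^ p := by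
  have := a.2
  rw [← norm_mul_dir a.1.2, mul_pow, norm_snd hp] at this
  exact Circle.ext ((mul_left_cancel₀ (pow_ne_zero p (Complex.ofReal_ne_zero.2 (ρ_pos h).ne')) this).symm.trans
    (Circle.coe_pow _ _).symm)

theorem ext' (hp : 0 < p) {a b : Xc B p} (h : pj a = pj b) (h' : dir a.1.2 = dir b.1.2) : a = b :=
  Subtype.ext (Prod.ext h (eq_of_dir (by rw [norm_snd hp, norm_snd hp, h]) h'))

theorem compact (hp : 0 < p) : CompactSpace (Xc B p) := by
  obtain ⟨C, hC⟩ := isCompact_univ.exists_bound_of_continuousOn (ρ_cont B).continuousOn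
  refine isCompact_iff_compactSpace.1 ((isCompact_univ.prod (isCompact_closedBall (0 : ℂ) C)).of_isClosed_subset
    (isClosed_eq (continuous_snd.pow p) ((Θ_cont B hp).comp continuous_fst)) fun a ha => ⟨trivial, ?_⟩)
  exact mem_closedBall_zero_iff.2 ((norm_snd hp ⟨a, ha⟩).trans_le ((le_abs_self _).trans (hC _ trivial)))

/-- a point from a root -/
def mk (x : B.N) (u : Circle) (h : u ^ p = B.θ x) : Xc B p :=
  ⟨(x, ρ B x * u), by rw [mul_pow, ← h, Circle.coe_pow]⟩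

theorem dir_mk {x : B.N} (hx : x ∈ B.T.Ex) (u : Circle) (h : u ^ p = B.θ x) : dir (mk x u h).1.2 = u :=
  dir_mul (ρ_pos hx) u

/-- the tube upstairs -/
def tb (hp : 0 < p) (w : Circle × ℂ) : Xc B p :=
  ⟨(B.T.τ (gl (0, p) (1, 0) w), ((1 + ‖w.2‖)⁻¹ : ℝ) * w.2), by
    simp only [ρ_τ, norm_gl]
    by_cases h : w.2 = 0
    · simp [h, hp.ne']
    · rw [B.θτ _ (gl_ne.2 h), dir_gl _ _ h]
      conv_lhs => rw [← norm_mul_dir w.2]
      simp [mul_pow, mul_assoc]⟩

theorem dir_tb (hp : 0 < p) (w : Circle × ℂ) : dir (tb (B := B) hp w).1.2 = dir w.2 :=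
  dir_pos_mul (by positivity) _

theorem tb_inv (hp : 0 < p) {a : Xc B p} {w : Circle × ℂ} (h : B.T.τ w = pj a) :
    tb hp (w.1, (1 + ‖w.2‖ : ℝ) * a.1.2) = a := by
  have h0 : 0 < 1 + ‖w.2‖ := by positivity
  have h1 : ‖((1 + ‖w.2‖ : ℝ) : ℂ) * a.1.2‖ = ‖w.2‖ := by
    rw [norm_mul, Complex.norm_real, Real.norm_of_nonneg h0.le, norm_snd hp, ← h, ρ_τ,
      mul_inv_cancel_left₀ h0.ne']
  refine ext' hp (Eq.trans (congrArg B.T.τ ?_) h) ((dir_tb hp _).trans (dir_pos_mul h0 _))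
  rw [gl_eq, h1, dir_pos_mul h0]
  refine Prod.ext rfl ?_
  by_cases k : w.2 = 0
  · simp [k]
  · rw [← dir_pow hp (h ▸ B.T.τ_mem.2 k), ← h, B.θτ _ k]
    exact norm_mul_dir _

theorem tb_cont (hp : 0 < p) : Continuous (tb (B := B) hp) := by
  refine Continuous.subtype_mk ((B.T.oe.continuous.comp (continuous_iff_continuousAt.2 fun w => ?_)).prodMk
    ((Complex.continuous_ofReal.comp ((continuous_const.add continuous_snd.norm).inv₀ fun w =>
      (add_pos_of_pos_of_nonneg one_pos (norm_nonneg _)).ne')).mul continuous_snd)) _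
  by_cases h : w.2 = 0
  · rw [funext (gl_eq p)]
    refine continuousAt_fst.prodMk ?_
    · simp only [ContinuousAt, h, norm_zero, Complex.ofReal_zero, zero_mul]
      exact tendsto_zero_iff_norm_tendsto_zero.2 ((tendsto_zero_iff_norm_tendsto_zero.1
        (h ▸ continuous_snd.tendsto w)).congr fun y => by simp)
  · exact (cm_gl _ _ h).continuousAt

theorem tb_oe (hp : 0 < p) : IsOpenEmbedding (tb (B := B) hp) := by
  let e := pdOfInj B.T.ld B.T.inj
  have c : ContinuousOn (fun a : Xc B p => e.symm (pj a)) (pj ⁻¹' range B.T.τ) :=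
    e.symm.contMDiffOn_toFun.continuousOn.comp pj_cont.continuousOn fun a ha => by simpa [e] using ha
  refine OpenPartialHomeomorph.isOpenEmbedding ⟨⟨⟨tb hp, fun a => ((e.symm (pj a)).1,
    (1 + ‖(e.symm (pj a)).2‖ : ℝ) * a.1.2), univ, pj ⁻¹' range B.T.τ, fun w _ => ⟨_, rfl⟩,
    fun _ _ => trivial, fun w _ => ?_, fun a ⟨w, h⟩ => ?_⟩, (tb_cont hp).continuousOn,
    c.fst.prodMk ((Complex.continuous_ofReal.comp_continuousOn (continuousOn_const.add c.snd.norm)).mul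
      snd_cont.continuousOn)⟩, isOpen_univ, B.T.oe.isOpen_range.preimage pj_cont⟩ rfl
  · have : e.symm (pj (tb hp w)) = gl (0, p) (1, 0) w := pdOfInj_symm_apply _ _ _
    rw [this, norm_gl]
    refine Prod.ext (by rw [gl_eq]) ?_
    show _ * (_ * w.2) = w.2
    rw [← mul_assoc, ← Complex.ofReal_mul, mul_inv_cancel₀ (by positivity), Complex.ofReal_one, one_mul]
  · have : e.symm (pj a) = w := h ▸ pdOfInj_symm_apply _ _ _
    rw [this]
    exact tb_inv hp h

/-- a local inverse of the power map -/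
def rt (hp : 0 < p) (u : Circle) : PartialDiffeomorph (𝓡 1) (𝓡 1) Circle Circle ∞ :=
  (ld_zpow (n := p) (by omega) u).localInverse

theorem rt_pow (hp : 0 < p) (u : Circle) {v : Circle} (h : v ∈ (rt hp u).source) : rt hp u v ^ p = v :=
  (zpow_natCast _ _).symm.trans ((ld_zpow (n := p) (by omega) u).localInverse_right_inv h)

theorem pow_rt (hp : 0 < p) (u : Circle) {v : Circle} (h : v ∈ (rt hp u).target) : rt hp u (v ^ p) = v :=
  zpow_natCast v p ▸ (ld_zpow (n := p) (by omega) u).localInverse_left_inv h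

theorem θ_cont : ContinuousOn B.θ B.T.Ex := fun x hx => (B.sm x hx).continuousAt.continuousWithinAt

variable (B) in
/-- the domain of a local section -/
def Ud (hp : 0 < p) (u : Circle) : Opens B.N :=
  ⟨B.T.Ex ∩ B.θ ⁻¹' (rt hp u).source, θ_cont.isOpen_inter_preimage B.T.isOpen_Ex (rt hp u).open_source⟩

/-- a local section -/
def sec (hp : 0 < p) (u : Circle) (x : Ud B hp u) : Xc B p := mk x.1 (rt hp u (B.θ x)) (rt_pow hp u x.2.2)

theorem range_sec (hp : 0 < p) (u : Circle) :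
    range (sec (B := B) hp u) = {a | pj a ∈ B.T.Ex ∧ dir a.1.2 ∈ (rt hp u).target} := by
  refine Subset.antisymm ?_ fun a ⟨h1, h2⟩ => ?_
  · rintro _ ⟨x, rfl⟩
    exact ⟨x.2.1, (dir_mk x.2.1 _ _).symm ▸ (rt hp u).map_source x.2.2⟩
  · have h3 := (rt hp u).map_target h2
    have h4 := rt_pow hp u h3
    rw [show rt hp u ((rt hp u).toPartialEquiv.symm (dir a.1.2)) = _ from (rt hp u).right_inv h2,
      ← dir_pow hp h1] at h4
    exact ⟨⟨pj a, h1, mem_preimage.2 (h4.symm ▸ h3)⟩, ext' hp rfl ((dir_mk h1 _ _).trans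
      ((congrArg (rt hp u) (dir_pow hp h1)).trans (pow_rt hp u h2)))⟩

theorem sm_rt (hp : 0 < p) (u : Circle) (x : Ud B hp u) :
    ContMDiffAt (𝓡 3) (𝓡 1) ∞ (fun y : Ud B hp u => rt hp u (B.θ y)) x :=
  ((rt hp u).contMDiffOn_toFun.contMDiffAt ((rt hp u).open_source.mem_nhds x.2.2)).comp x
    ((B.sm _ x.2.1).comp x contMDiff_subtype_val.contMDiffAt)

theorem sec_oe (hp : 0 < p) (u : Circle) : IsOpenEmbedding (sec (B := B) hp u) := by
  refine ⟨IsEmbedding.of_comp (Continuous.subtype_mk (continuous_subtype_val.prodMk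
    ((Complex.continuous_ofReal.comp ((ρ_cont B).comp continuous_subtype_val)).mul
      (continuous_subtype_val.comp (continuous_iff_continuousAt.2 fun x => (sm_rt hp u x).continuousAt)))) _)
    pj_cont IsEmbedding.subtypeVal, range_sec hp u ▸ ?_⟩
  exact ContinuousOn.isOpen_inter_preimage (s := pj ⁻¹' B.T.Ex) (fun a ha =>
    ((contMDiffAt_dir (snd_ne hp ha)).continuousAt.comp (f := fun a : Xc B p => a.1.2)
      snd_cont.continuousAt).continuousWithinAt)
    (B.T.isOpen_Ex.preimage pj_cont) (rt hp u).open_target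

theorem mem_sec (hp : 0 < p) {a : Xc B p} (h : pj a ∈ B.T.Ex) : ∃ u x, sec hp u x = a :=
  ⟨_, (range_sec hp _).ge ⟨h, (ld_zpow (n := p) (by omega) _).localInverse_mem_target⟩⟩

theorem compat_sec (hp : 0 < p) (u : Circle) {E H M : Type} [NormedAddCommGroup E] [NormedSpace ℝ E]
    [TopologicalSpace H] {I : ModelWithCorners ℝ E H} [TopologicalSpace M] [ChartedSpace H M]
    {f : M → Xc B p} (cf : Continuous f)
    (hf : ∀ x, pj (f x) ∈ B.T.Ex → IsLocalDiffeomorphAt I (𝓡 3) ∞ (pj ∘ f) x) :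
    Compat I (𝓡 3) f (sec hp u) := fun x y e =>
  compat_at e cf.continuousAt (sec_oe hp u).continuous.continuousAt (hf x (e ▸ y.2.1)) (ld_val _ y)
    ((sec_oe hp u).isOpen_range.mem_nhds ⟨y, rfl⟩) (by
      rintro _ ⟨a, rfl⟩ _ ⟨b, rfl⟩ h
      exact congrArg _ (Subtype.ext h))

theorem ld_pt (hp : 0 < p) {w : Circle × ℂ} (h : w.2 ≠ 0) :
    IsLocalDiffeomorphAt Rod53.IT (𝓡 3) ∞ (pj ∘ tb (B := B) hp) w := (ld_glp hp h).comp _ _ (B.T.ld _)

theorem pj_tb (hp : 0 < p) {w : Circle × ℂ} : pj (tb (B := B) hp w) ∈ B.T.Ex ↔ w.2 ≠ 0 :=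
  B.T.τ_mem.trans gl_ne

theorem mem_tb (hp : 0 < p) {a : Xc B p} (h : pj a ∈ range B.T.τ) : a ∈ range (tb hp) :=
  ⟨_, tb_inv hp h.choose_spec⟩

variable (B) in
/-- the covering by manifolds -/
def cov (hp : 0 < p) : Cov E3 (Xc B p) (Option Circle) where
  P | none => Pc.of Rod53.IT (Circle × ℂ) (linE 3 _ (by simp))
    | some u => Pc.of (𝓡 3) (Ud B hp u) (.refl ℝ E3)
  f | none => tb hp
    | some u => sec hp u
  loc | none => (tb_oe hp).isLocalHomeomorph
      | some u => (sec_oe hp u).isLocalHomeomorph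
  surj a := (B.T.Ex_or (pj a)).elim (fun h => let ⟨u, k⟩ := mem_sec hp h; ⟨some u, k⟩) fun ⟨_, h⟩ => ⟨none, mem_tb hp ⟨_, h⟩⟩
  compat
    | none, none => compat_of_injective (tb_oe hp).injective
    | none, some u => compat_sec hp u (tb_cont hp) fun _ h => ld_pt hp ((pj_tb hp).1 h)
    | some u, none => (compat_sec hp u (tb_cont hp) fun _ h => ld_pt hp ((pj_tb hp).1 h)).symm
    | some u, some v => compat_sec hp v (sec_oe hp u).continuous fun x _ => ld_val _ x

theorem conn (hp : 0 < p) : ConnectedSpace (Xc B p) := by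
  have := compact (B := B) hp
  have key : ∀ s : Set (Xc B p), IsClopen s → Disjoint s (range (tb hp)) → s = ∅ := fun s hs hd => by
    have h1 : ∀ a ∈ s, pj a ∉ range B.T.τ := fun a ha h => disjoint_left.1 hd ha (mem_tb hp h)
    have h2 : IsClopen (pj '' s) := ⟨(hs.isClosed.isCompact.image pj_cont).isClosed,
      isOpen_iff_mem_nhds.2 (by
        rintro _ ⟨a, ha, rfl⟩
        obtain ⟨u, x, rfl⟩ := mem_sec hp (B.T.mem_Ex_of (h1 a ha))
        exact mem_of_superset ((Ud B hp _).2.isOpenMap_subtype_val.image_mem_nhds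
          ((hs.isOpen.preimage (sec_oe hp _).continuous).mem_nhds ha))
          (by rintro _ ⟨y, hy, rfl⟩; exact ⟨_, hy, rfl⟩))⟩
    refine image_eq_empty.1 ((isClopen_iff.1 h2).resolve_right fun e => ?_)
    obtain ⟨a, ha, e'⟩ := e.ge (mem_univ (B.T.τ (1, 0)))
    exact h1 a ha ⟨_, e'.symm⟩
  refine @ConnectedSpace.mk _ _ (preconnectedSpace_iff_clopen.2 fun s hs => ?_) ⟨tb hp (1, 0)⟩
  rcases (isPreconnected_range (tb_cont (B := B) hp)).subset_or_subset hs.isOpen hs.compl.isOpen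
    disjoint_compl_right (union_compl_self s ▸ subset_univ _) with h | h
  · exact Or.inr (compl_empty_iff.1 (key _ hs.compl (disjoint_compl_left_iff_subset.2 h)))
  · exact Or.inl (key _ hs (subset_compl_iff_disjoint_left.1 h))

theorem pos_glp (hp : 0 < p) :
    Orx52.Pos Rod53.IT Rod53.IT (gl (0, p) (1, 0)) {z | z.2 ≠ 0} oT oT :=
  pos_of_eq (oriOn ori_oT _) (c := fun _ => p) (fun _ _ => by exact_mod_cast hp)
    fun z hz => by rw [pm_gl _ _ hz]; simp [dt]

/-- **BR** -/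
theorem brStmt : BrStmt := by
  intro B p hp
  let := (cov B hp).cs
  have := (cov B hp).mf
  have := compact (B := B) hp
  have := conn (B := B) hp
  have l1 : ∀ u, IsLocalDiffeomorph (𝓡 3) (𝓡 3) ∞ (sec (B := B) hp u) := fun u => (cov B hp).ld (some u)
  let T : Tb (𝓡 3) (Xc B p) := ⟨tb hp, (cov B hp).ld none, (tb_oe hp).injective, by simp⟩
  have ex : ∀ {a}, a ∈ T.Ex ↔ pj a ∈ B.T.Ex := fun {a} => by
    by_cases h : a ∈ range (tb hp)
    · obtain ⟨w, rfl⟩ := h
      exact T.τ_mem.trans (pj_tb hp).symm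
    · exact iff_of_true (T.mem_Ex_of h) (B.T.mem_Ex_of fun k => h (mem_tb hp k))
  have ld : ∀ a ∈ T.Ex, IsLocalDiffeomorphAt (𝓡 3) (𝓡 3) ∞ pj a := fun a ha => by
    obtain ⟨u, x, rfl⟩ := mem_sec hp (ex.1 ha)
    exact ld_of_comp (l1 u x) (ld_val _ x)
  have sm : ∀ a ∈ T.Ex, ContMDiffAt (𝓡 3) (𝓡 1) ∞ (fun a : Xc B p => dir a.1.2) a := fun a ha => by
    obtain ⟨u, x, rfl⟩ := mem_sec hp (ex.1 ha)
    exact contMDiffAt_of_comp (l1 u x)
      ((sm_rt hp _ x).congr_of_eventuallyEq (.of_forall fun y => dir_mk y.2.1 _ _))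
  have po := pos_pm B.ori ld fun _ => ex.1
  have p1 : Orx52.Pos Rod53.IT (𝓡 3) (pj ∘ T.τ) {z | z.2 ≠ 0} oT B.o :=
    B.pos.comp (pos_glp hp) (fun w _ => B.T.ld w) (fun _ => ld_glp hp) fun _ => gl_ne.2
  let B' : Bs := ⟨Xc B p, T, fun a => dir a.1.2, sm, fun w _ => dir_tb hp w, pm (𝓡 3) (𝓡 3) pj B.o,
    B.ori.pm ld fun _ => ex.1, p1.of_comp_left po ld (fun w _ => T.ld w) fun _ => T.τ_mem.2⟩
  exact ⟨B', pj, ld, fun _ => rfl, fun q h k => h (mem_tb hp k), fun q h => dir_pow hp (ex.1 h),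
    fun x hx u hu => ⟨mk x u hu, ⟨ex.2 hx, rfl, dir_mk hx u hu⟩,
      fun q h => ext' hp h.2.1 (h.2.2.trans (dir_mk hx u hu).symm)⟩, po⟩

end Crest.Agent.X212.Cy83
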