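import Crest.Agent.X212.Cg28.Defs

/-!
# X212 / Cy83 (helper83): closing up a timed four-manifold (`Cg28.CyStmt`)
-/

set_option autoImplicit false

open Set Filter Topology Function TopologicalSpace
open scoped ContDiff Manifold
open Crest.Agent.R208 Crest.Agent.R208.F Crest.Agent.X212.Dr59 Crest.Agent.X212.Int54
open Crest.Agent.X212.Glue52 Crest.Agent.X212.Orx52 Crest.Agent.X212.Cg28
open Crest.Agent.X212.Rod53 (E4)

namespace Crest.Agent.X212.Cy83

/-- **CY** -/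
theorem cyStmt : CyStmt := by
  intro M _ _ _ _ _ τ O L g hτ hK hO hL ⟨x₀, h₀⟩ J
  classical
  let D : Opens M := ⟨τ ⁻¹' Ioo 0 (L + 1), isOpen_Ioo.preimage hτ⟩
  have s1 : ∀ {x}, x ∈ g.source ↔ τ x ∈ Ioo L (L + 1) := fun {x} => by rw [J.src]; rfl
  have s2 : ∀ {x}, x ∈ g.source → τ (g x) ∈ Ioo 0 1 := fun {x} hx => J.tgt.le (g.map_source hx)
  have s3 : ∀ {x}, x ∈ g.source → g x ∈ D := fun hx => ⟨(s2 hx).1, by linarith [(s2 hx).2]⟩
  have s4 : ∀ {x}, x ∈ g.source → x ∈ D := fun hx => ⟨by linarith [(s1.1 hx).1], (s1.1 hx).2⟩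
  let T : D → D := fun z => if h : z.1 ∈ g.source then ⟨g z, s3 h⟩ else z
  have t1 : ∀ {z : D}, z.1 ∈ g.source → (T z).1 = g z := fun h => congrArg Subtype.val (dif_pos h)
  have t2 : ∀ {z : D}, z.1 ∉ g.source → T z = z := fun h => dif_neg h
  have t3 : ∀ z, T (T z) = T z := fun z => by
    by_cases h : z.1 ∈ g.source
    · exact t2 fun h' => by linarith [(s1.1 h').1, t1 h ▸ (s2 h).2]
    · rw [t2 h, t2 h]
  have t4 : ∀ {p q}, T p = T q ↔ p = q ∨ (p.1 ∈ g.source ∧ T p = q) ∨ (q.1 ∈ g.source ∧ T q = p) := by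
    refine fun {p q} => ⟨fun e => ?_, ?_⟩
    · by_cases hp : p.1 ∈ g.source <;> by_cases hq : q.1 ∈ g.source
      · exact Or.inl (Subtype.ext (g.injOn hp hq (by rw [← t1 hp, ← t1 hq, e])))
      · exact Or.inr (Or.inl ⟨hp, e.trans (t2 hq)⟩)
      · exact Or.inr (Or.inr ⟨hq, e.symm.trans (t2 hp)⟩)
      · exact Or.inl (by rwa [t2 hp, t2 hq] at e)
    · rintro (rfl | ⟨-, rfl⟩ | ⟨-, rfl⟩)
      exacts [rfl, (t3 _).symm, t3 _]
  have t5 : ∀ {p : D}, p.1 ∈ g.source → τ (T p) = τ p - L := fun h => by rw [t1 h, J.tm _ h]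
  have t6 : ∀ {p : D}, p.1 ∈ g.source → Subtype.val ∘ T =ᶠ[𝓝 p] g ∘ Subtype.val := fun h =>
    eventually_of_mem ((g.open_source.preimage continuous_subtype_val).mem_nhds h) fun _ hz => t1 hz
  have t7 : ∀ {p : D}, p.1 ∈ g.source → IsLocalDiffeomorphAt (𝓡 4) (𝓡 4) ∞ T p := fun h =>
    ld_codRestrict (ld_congr (ld_restrict (ldp g h)) (t6 h))
  have cτ : Continuous fun z : D => τ z := hτ.comp continuous_subtype_val
  let G : GD E4 Unit := GD.ofMaps (fun _ => Pc.of (𝓡 4) D (.refl ℝ E4)) (fun _ => T) (fun _ _ p q e => by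
    rcases t4.1 e with rfl | ⟨h, rfl⟩ | ⟨h, rfl⟩
    · exact ⟨pdRefl _ _, mem_univ _, rfl, fun _ _ => rfl⟩
    · obtain ⟨φ, a, b⟩ := t7 h
      exact ⟨φ, a, (b a).symm, fun z hz => b hz ▸ t3 z⟩
    · obtain ⟨φ, a, b⟩ := t7 h
      refine ⟨φ.symm, b a ▸ φ.map_source a, b a ▸ φ.left_inv a, fun z hz => ?_⟩
      exact (t3 _).symm.trans (congrArg T ((b (φ.map_target hz)).trans (φ.right_inv hz)))) fun _ p => by
    refine ⟨_, cτ.continuousAt (Ioo_mem_nhds (a := τ p.1 - 1 / 2) (b := τ p.1 + 1 / 2) (by linarith)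
      (by linarith)), fun z hz w hw e => ?_⟩
    rcases t4.1 e with e | ⟨h, rfl⟩ | ⟨h, rfl⟩
    · exact e
    · linarith [t5 h, hz.2, hw.1]
    · linarith [t5 h, hz.1, hw.2]
  have g1 : ∀ {p q : D}, G.inc () p = G.inc () q ↔ T p = T q := GD.ofMaps_inc
  have cl : IsClosed {x : D × D | x.1.1 ∈ g.source ∧ T x.1 = x.2} := by
    have a : ∀ x ∈ {x : D × D | τ x.2 = τ x.1 - L}, x.1.1 ∈ g.source := fun x (hx : _ = _) =>
      s1.2 ⟨by linarith [x.2.2.1], x.1.2.2⟩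
    have := ContinuousOn.preimage_isClosed_of_isClosed (f := fun x : D × D => (T x.1, x.2))
      (fun x hx => (((t7 (a x hx)).contMDiffAt.continuousAt.comp continuousAt_fst).prodMk
        continuousAt_snd).continuousWithinAt)
      (isClosed_eq (cτ.comp continuous_snd) ((cτ.comp continuous_fst).sub continuous_const))
      isClosed_diagonal
    convert this using 1
    exact Subset.antisymm (fun x hx => ⟨(congrArg (fun z : D => τ z) hx.2).symm.trans (t5 hx.1), hx.2⟩) fun x hx => ⟨a x hx.1, hx.2⟩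
  have : T2Space G.M := G.t2Space fun _ _ =>
    (Set.ext fun _ => t4) ▸ (isClosed_diagonal (X := D)).union (cl.union (cl.preimage continuous_swap))
  have : CompactSpace G.M := G.compactSpace (fun _ => Subtype.val ⁻¹' (τ ⁻¹' Icc (1 / 3) (L + 2 / 3)))
    (fun _ => IsInducing.subtypeVal.isCompact_preimage' (hK _ _) fun x hx =>
      ⟨⟨x, by linarith [hx.1], by linarith [hx.2]⟩, rfl⟩) fun _ (p : D) => by
    by_cases h1 : τ p < 1 / 3
    · have a : p.1 ∈ g.target := J.tgt.ge ⟨p.2.1, by linarith⟩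
      have b := g.map_target a
      have c : T ⟨_, s4 b⟩ = p := Subtype.ext ((t1 b).trans (g.right_inv a))
      have d := t5 (p := ⟨_, s4 b⟩) b
      rw [c] at d
      exact ⟨(), ⟨_, s4 b⟩, ⟨by linarith [(s1.1 b).1], by linarith⟩, t4.2 (Or.inr (Or.inr ⟨b, c⟩))⟩
    · by_cases h2 : τ p ≤ L + 2 / 3
      · exact ⟨(), p, ⟨not_lt.1 h1, h2⟩, rfl⟩
      · have a : p.1 ∈ g.source := s1.2 ⟨by linarith, p.2.2⟩
        exact ⟨(), T p, ⟨by linarith [t5 a], by linarith [t5 a, p.2.2]⟩, (t3 p).symm⟩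
  have : SecondCountableTopology G.M := by
    have : ∀ i, SecondCountableTopology (G.P i).M := fun _ => inferInstanceAs (SecondCountableTopology D)
    exact G.secondCountable
  have := sigmaCompact (𝓡 4) G.M
  have ld : IsLocalDiffeomorph (𝓡 4) (𝓡 4) ∞ (fun p : D => G.inc () p) := G.ld ()
  have o1 := ori_pm hO (ld_val D)
  have o2 : Pos (𝓡 4) (𝓡 4) (Subtype.val : D → M) univ _ O :=
    pos_pm (oriOn hO univ) (fun y _ => ld_val D y) (mapsTo_univ _ _)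
  have o3 : Pos (𝓡 4) (𝓡 4) T (Subtype.val ⁻¹' g.source) _ _ := Pos.of_comp_left
    ((J.pos.comp (o2.mono (subset_univ _)) (fun _ => ldp g) (fun y _ => ld_val D y) fun _ h => h).congr'
      fun _ => t6) o2 (fun y _ => ld_val D y) (fun _ => t7) (mapsTo_univ _ _)
  have o4 := fun (a : D) (h : a.1 ∈ g.source) => sign_of_trans (ld (T a)) (t7 h)
    (q := fun p : D => G.inc () p) (.of_forall fun z => g1.2 (t3 z).symm) (o3 a h)
  obtain ⟨o, k1, -, k2⟩ := exists_ori_desc ld (fun x => by obtain ⟨_, p, e⟩ := G.surj x; exact ⟨p, e⟩) o1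
    fun a b e => by
      rcases t4.1 (g1.1 e) with rfl | ⟨h, rfl⟩ | ⟨h, rfl⟩
      · exact mul_self_pos.2 (mul_ne_zero (jac_ld (ld a)) (o1.ne a))
      · exact o4 _ h
      · exact (o4 _ h).trans_eq (mul_comm _ _)
  let i : M → G.M := fun x => G.inc () (if h : x ∈ D then (⟨x, h⟩ : D) else ⟨x₀, h₀⟩)
  have i1 : ∀ p : D, i p = G.inc () p := fun p => congrArg (fun q : D => G.inc () q) (dif_pos p.2)
  have i2 : i ∘ Subtype.val = fun p : D => G.inc () p := funext i1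
  have i3 : ∀ p : D, IsLocalDiffeomorphAt (𝓡 4) (𝓡 4) ∞ i p := fun p =>
    ld_of_comp (ld_val D p) (i2 ▸ ld p)
  refine ⟨⟨G.M, o, k1⟩, i, fun x hx => i3 ⟨x, hx⟩,
    (Pos.of_comp (i2 ▸ k2) o2 (fun p _ => i3 p) fun y _ => ld_val D y).mono fun x hx => ⟨⟨x, hx⟩, trivial, rfl⟩,
    fun x y hx hy hxy e => ?_, fun y hy => ?_, fun z => ?_⟩
  · rcases t4.1 (g1.1 (((i1 ⟨x, hx⟩).symm.trans e).trans (i1 ⟨y, hy⟩))) with e | ⟨h, e⟩ | ⟨h, e⟩
    · exact Or.inl (congrArg Subtype.val e)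
    · have := t5 h
      rw [e] at this
      linarith
    · exact Or.inr ⟨h, (t1 h).symm.trans (congrArg Subtype.val e)⟩
  · exact ((i1 ⟨_, s3 hy⟩).trans (g1.2 (t4.2 (Or.inr (Or.inr ⟨hy, Subtype.ext (t1 hy)⟩))))).trans
      (i1 ⟨y, s4 hy⟩).symm
  · obtain ⟨_, p, e⟩ := G.surj z
    exact ⟨p.1, p.2, (i1 p).trans e⟩

end Crest.Agent.X212.Cy83
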